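import Vale.Agent.P096.III.Tensor.Site
import Vale.Agent.P096.Linear.Main
import Vale.Agent.P095.NoChar
import Vale.Agent.P104.Harm.Main

/-!
# P096, type III: tensoring both algebras with a common product algebra

`tens G M` is the commutant of `M'` in every coordinate together with a fixed finite group `G` of
unitary matrices at every site; it contains `M` in every coordinate and, at every site, the
matrices commuting with `G`.
-/

namespace Vale.Agent.P096.III.Tensor

open scoped InnerProductSpace Topology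
open Filter
open Vale.Agent.P082 (Alg)

universe u

variable {κ : ℕ → Type} [∀ n, Fintype (κ n)] [∀ n, DecidableEq (κ n)] [∀ n, Zero (κ n)]
variable {H : Type u} [NormedAddCommGroup H] [InnerProductSpace ℂ H] [CompleteSpace H]

/-- A finite group of unitary matrices. -/
structure IsUGroup (G : ∀ n, Finset (Matrix (κ n) (κ n) ℂ)) : Prop where
  one_mem : ∀ n, 1 ∈ G n
  mul_mem : ∀ n, ∀ a ∈ G n, ∀ b ∈ G n, a * b ∈ G n
  star_mem : ∀ n, ∀ a ∈ G n, star a ∈ G n
  unit : ∀ n, ∀ a ∈ G n, a ∈ unitary (Matrix (κ n) (κ n) ℂ)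

/-- `M` tensor the commutants of `G` at all sites. -/
noncomputable def tens (G : ∀ n, Finset (Matrix (κ n) (κ n) ℂ)) (M : VonNeumannAlgebra H) :
    VonNeumannAlgebra (Big κ H) where
  toStarSubalgebra := StarSubalgebra.centralizer ℂ
    ((amp κ H '' (M.commutant : Set (H →L[ℂ] H))) ∪ ⋃ n, site H n '' (G n : Set (Matrix (κ n) (κ n) ℂ)))
  centralizer_centralizer' := by simp

variable {G : ∀ n, Finset (Matrix (κ n) (κ n) ℂ)} {M N : VonNeumannAlgebra H}

theorem mem_tens (hG : IsUGroup G) {T : Big κ H →L[ℂ] Big κ H} :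
    T ∈ tens G M ↔ (∀ y ∈ M.commutant, Commute (amp κ H y) T) ∧
      ∀ n, ∀ g ∈ G n, Commute (site H n g) T := by
  refine (StarSubalgebra.mem_centralizer_iff ℂ).trans ⟨fun h => ⟨fun y hy => ?_, fun n g hg => ?_⟩,
    ?_⟩
  · exact (h _ (Or.inl ⟨y, hy, rfl⟩)).1
  · exact (h _ (Or.inr (Set.mem_iUnion.2 ⟨n, g, hg, rfl⟩))).1
  · rintro ⟨h1, h2⟩ _ (⟨y, hy, rfl⟩ | hS)
    · exact ⟨h1 y hy, by rw [← map_star]; exact h1 _ (star_mem hy)⟩
    · obtain ⟨n, g, hg, rfl⟩ := Set.mem_iUnion.1 hS
      exact ⟨h2 n g hg, by rw [← map_star]; exact h2 n _ (hG.star_mem _ g hg)⟩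

theorem amp_mem (hG : IsUGroup G) {x : H →L[ℂ] H} (hx : x ∈ M) : amp κ H x ∈ tens G M := by
  refine (mem_tens hG).2 ⟨fun y hy => ?_, fun n g _ => (commute_amp_site x n g).symm⟩
  have h : Commute y x := (VonNeumannAlgebra.mem_commutant_iff.1 hy x hx).symm
  exact h.map (amp κ H)

theorem site_mem (hG : IsUGroup G) (n : ℕ) {A : Matrix (κ n) (κ n) ℂ} (hA : ∀ g ∈ G n, Commute g A) :
    site H n A ∈ tens G M := by
  refine (mem_tens hG).2 ⟨fun y _ => commute_amp_site y n A, fun m g hg => ?_⟩
  rcases eq_or_ne m n with rfl | h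
  · exact (hA g hg).map (site H m)
  · exact commute_site h g A

/-- A block of an operator. -/
noncomputable def blk (i j : Lbl κ) (T : Big κ H →L[ℂ] Big κ H) : H →L[ℂ] H :=
  (lp.evalCLM ℂ (fun _ : Lbl κ => H) 2 i).comp
    (T.comp (lp.singleContinuousLinearMap ℂ (fun _ : Lbl κ => H) 2 j))

omit [∀ n, Fintype (κ n)] [CompleteSpace H] in
theorem blk_apply (i j : Lbl κ) (T : Big κ H →L[ℂ] Big κ H) (h : H) :
    blk i j T h = T (lp.single 2 j h) i := rfl

theorem norm_blk_le (i j : Lbl κ) (T : Big κ H →L[ℂ] Big κ H) : ‖blk i j T‖ ≤ ‖T‖ :=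
  ContinuousLinearMap.opNorm_le_bound _ (norm_nonneg T) fun h => by
    rw [blk_apply]
    refine (lp.norm_apply_le_norm (by norm_num) _ i).trans ((T.le_opNorm _).trans_eq ?_)
    rw [lp.norm_single (by norm_num)]

omit [∀ n, Fintype (κ n)] in
theorem amp_single (y : H →L[ℂ] H) (j : Lbl κ) (h : H) :
    amp κ H y (lp.single 2 j h) = lp.single 2 j (y h) := by
  refine lp.ext (funext fun i => ?_)
  rw [amp_apply]
  rcases eq_or_ne i j with rfl | hij
  · rw [lp.single_apply_self, lp.single_apply_self]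
  · rw [single_of_ne _ hij, single_of_ne _ hij, map_zero]

theorem blk_amp (y : H →L[ℂ] H) (j : Lbl κ) : blk j j (amp κ H y) = y :=
  ContinuousLinearMap.ext fun h => by rw [blk_apply, amp_single, lp.single_apply_self]

/-- Blocks of the tensor algebra lie in the algebra. -/
theorem blk_mem (hG : IsUGroup G) {T : Big κ H →L[ℂ] Big κ H} (hT : T ∈ tens G M)
    (i j : Lbl κ) : blk i j T ∈ M := by
  suffices h : blk i j T ∈ M.commutant.commutant by
    rwa [VonNeumannAlgebra.commutant_commutant] at h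
  rw [VonNeumannAlgebra.mem_commutant_iff]
  intro y hy
  refine ContinuousLinearMap.ext fun u => ?_
  have h := congrArg (fun S : Big κ H →L[ℂ] Big κ H => S (lp.single 2 j u) i)
    ((mem_tens hG).1 hT |>.1 y hy).eq
  simpa only [mul_apply_eq_comp, amp_apply, amp_single, ← blk_apply] using h

/-- The mean of the conjugates by the group at site `n`. -/
noncomputable def siteMean (G : ∀ n, Finset (Matrix (κ n) (κ n) ℂ)) (n : ℕ) (y : Big κ H →L[ℂ] Big κ H) :
    Big κ H →L[ℂ] Big κ H :=
  (((G n).card : ℂ))⁻¹ • ∑ g ∈ G n, site H n g * y * star (site H n g)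

theorem commute_siteMean_of (hG : IsUGroup G) {n : ℕ} {a y : Big κ H →L[ℂ] Big κ H}
    (ha : ∀ g ∈ G n, Commute a (site H n g)) (hy : Commute a y) :
    Commute a (siteMean G n y) := by
  refine (Commute.sum_right _ _ _ fun g hg => ?_).smul_right _
  refine ((ha g hg).mul_right hy).mul_right ?_
  rw [← map_star]
  exact ha _ (hG.star_mem _ g hg)

theorem commute_siteMean (hG : IsUGroup G) {n : ℕ} {a : Matrix (κ n) (κ n) ℂ} (ha : a ∈ G n)
    (y : Big κ H →L[ℂ] Big κ H) : Commute (site H n a) (siteMean G n y) := by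
  have hu : site H n a ∈ unitary (Big κ H →L[ℂ] Big κ H) := Unitary.map_mem _ (hG.unit _ a ha)
  have key : site H n a * siteMean G n y * star (site H n a) = siteMean G n y := by
    rw [siteMean, mul_smul_comm, smul_mul_assoc, Finset.mul_sum, Finset.sum_mul]
    congr 1
    refine Finset.sum_bij' (fun g _ => a * g) (fun g _ => star a * g)
      (fun g hg => hG.mul_mem _ a ha g hg)
      (fun g hg => hG.mul_mem _ _ (hG.star_mem _ a ha) g hg)
      (fun g _ => by rw [← mul_assoc, Unitary.star_mul_self_of_mem (hG.unit _ a ha), one_mul])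
      (fun g _ => by rw [← mul_assoc, Unitary.mul_star_self_of_mem (hG.unit _ a ha), one_mul])
      (fun g _ => by rw [map_mul, star_mul]; simp only [mul_assoc])
  calc site H n a * siteMean G n y
      = site H n a * siteMean G n y * star (site H n a) * site H n a := by
        rw [mul_assoc _ (star (site H n a)), Unitary.star_mul_self_of_mem hu, mul_one]
    _ = _ := by rw [key]

theorem norm_sub_siteMean_le (hG : IsUGroup G) {n : ℕ} {T y : Big κ H →L[ℂ] Big κ H}
    (hT : ∀ g ∈ G n, Commute (site H n g) T) : ‖T - siteMean G n y‖ ≤ ‖T - y‖ := by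
  have hc : ((G n).card : ℂ) ≠ 0 := Nat.cast_ne_zero.2 (Finset.card_ne_zero.2 ⟨1, hG.one_mem _⟩)
  have e : T - siteMean G n y = siteMean G n (T - y) := by
    have hconst : siteMean G n T = T := by
      rw [siteMean, Finset.sum_congr rfl fun g hg => show _ = T by
        rw [(hT g hg).eq, mul_assoc, Unitary.mul_star_self_of_mem
          (Unitary.map_mem _ (hG.unit _ g hg)), mul_one]]
      rw [Finset.sum_const, ← Nat.cast_smul_eq_nsmul ℂ, inv_smul_smul₀ hc]
    conv_lhs => rw [← hconst]
    simp only [siteMean, mul_sub, sub_mul, Finset.sum_sub_distrib, smul_sub]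
  rw [e, siteMean, norm_smul, norm_inv, Complex.norm_natCast,
    inv_mul_le_iff₀ (Nat.cast_pos.2 (Finset.card_pos.2 ⟨1, hG.one_mem _⟩))]
  refine (norm_sum_le _ _).trans ((Finset.sum_le_card_nsmul _ _ _ fun g hg => ?_).trans
    (nsmul_eq_mul _ _).le)
  have hu : site H n g ∈ unitary (Big κ H →L[ℂ] Big κ H) := Unitary.map_mem _ (hG.unit _ g hg)
  rw [CStarRing.norm_mul_mem_unitary _ (Unitary.star_mem hu), CStarRing.norm_mem_unitary_mul _ hu]

/-- Average over all sites, one after the other, and take a weak limit. -/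
theorem exists_mem_tens_near (hG : IsUGroup G) {T y : Big κ H →L[ℂ] Big κ H}
    (hT : ∀ n, ∀ g ∈ G n, Commute (site H n g) T)
    (hy : ∀ z ∈ M.commutant, Commute (amp κ H z) y) :
    ∃ S ∈ tens G M, ‖T - S‖ ≤ ‖T - y‖ := by
  let Y : ℕ → Big κ H →L[ℂ] Big κ H := fun n => Nat.rec y (fun k z => siteMean G k z) n
  have hYs : ∀ n, Y (n + 1) = siteMean G n (Y n) := fun n => rfl
  have hd : ∀ n, ‖T - Y n‖ ≤ ‖T - y‖ := fun n => by
    induction n with
    | zero => exact le_rfl
    | succ n ih => exact (norm_sub_siteMean_le hG (hT n)).trans ih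
  have hz : ∀ n : ℕ, ∀ z ∈ M.commutant, Commute (amp κ H z) (Y n) := by
    intro n
    induction n with
    | zero => exact hy
    | succ n ih =>
      intro z hz
      exact commute_siteMean_of hG (fun g _ => commute_amp_site z n g) (ih z hz)
  have hg : ∀ n m : ℕ, m < n → ∀ g ∈ G m, Commute (site H m g) (Y n) := by
    intro n
    induction n with
    | zero => exact fun m hm => absurd hm (Nat.not_lt_zero m)
    | succ n ih =>
      intro m hm g hgG
      rcases eq_or_ne m n with rfl | hne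
      · exact commute_siteMean hG hgG _
      · exact commute_siteMean_of hG (fun k _ => commute_site hne g k)
          (ih m (by omega) g hgG)
  have hb : ∀ n, ‖Y n‖ ≤ ‖T‖ + ‖T - y‖ := fun n => by
    have := norm_sub_le T (T - Y n)
    rw [sub_sub_cancel] at this
    linarith [hd n]
  obtain ⟨S, hS⟩ := Vale.Agent.P095.NoChar.exists_wlim Y _ hb
  have comm : ∀ a : Big κ H →L[ℂ] Big κ H,
      (∀ᶠ n in (Filter.hyperfilter ℕ : Filter ℕ), Commute a (Y n)) → Commute a S := by
    intro a ha
    refine ContinuousLinearMap.ext fun v => ext_inner_left ℂ fun u => ?_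
    show ⟪u, a (S v)⟫_ℂ = ⟪u, S (a v)⟫_ℂ
    rw [← ContinuousLinearMap.adjoint_inner_left]
    refine tendsto_nhds_unique (hS _ v) ((hS u (a v)).congr' (ha.mono fun n hn => ?_))
    show ⟪u, Y n (a v)⟫_ℂ = ⟪ContinuousLinearMap.adjoint a u, Y n v⟫_ℂ
    rw [ContinuousLinearMap.adjoint_inner_left]
    exact congrArg (fun A : Big κ H →L[ℂ] Big κ H => ⟪u, A v⟫_ℂ) hn.eq.symm
  refine ⟨S, (mem_tens hG).2 ⟨fun z hz' => comm _ (Eventually.of_forall fun n => hz n z hz'),
    fun m g hgG => comm _ ?_⟩, ?_⟩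
  · exact ((eventually_gt_atTop m).filter_mono Nat.hyperfilter_le_atTop).mono fun n hn => hg n m hn g hgG
  · refine Vale.Agent.P104.Harm.norm_le_of_wlim (A := fun n => T - Y n) (fun u v => ?_) hd
    simp only [sub_apply, inner_sub_right]
    exact tendsto_const_nhds.sub (hS u v)

/-- Close algebras stay close after tensoring. -/
theorem exists_near_tens :
    ∃ C : ℝ, 0 ≤ C ∧
      ∀ (κ : ℕ → Type) [∀ n, Fintype (κ n)] [∀ n, DecidableEq (κ n)] [∀ n, Zero (κ n)]
        (G : ∀ n, Finset (Matrix (κ n) (κ n) ℂ)), IsUGroup G →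
      ∀ (H : Type u) [NormedAddCommGroup H] [InnerProductSpace ℂ H] [CompleteSpace H]
        (M N : VonNeumannAlgebra H) (δ : ℝ), 0 ≤ δ → Near M N δ →
        Near (tens G M) (tens G N) (C * δ) := by
  obtain ⟨D, hD, hR⟩ := Linear.stmtDistRep.{u}
  obtain ⟨K, hK, hC⟩ := Linear.exists_near_commutant.{u}
  refine ⟨8 * D * K, by positivity, fun κ _ _ _ G hG H _ _ _ M N δ hδ hMN => ?_⟩
  have side : ∀ {A B : VonNeumannAlgebra H}, BallNear B.commutant A.commutant (K * δ) →
      BallNear (tens G A) (tens G B) (8 * D * K * δ) := by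
    intro A B hcom T hT hT1
    set σ : Alg B.commutant →⋆ₐ[ℂ] (Big κ H →L[ℂ] Big κ H) :=
      (amp κ H).comp B.commutant.toStarSubalgebra.subtype with hσ
    have hTc := (mem_tens hG).1 hT
    have key : ∀ S : Big κ H →L[ℂ] Big κ H, IsSelfAdjoint S →
        (∀ z ∈ A.commutant, Commute (amp κ H z) S) → ‖S‖ ≤ 1 →
        ∃ R : Big κ H →L[ℂ] Big κ H, (∀ z ∈ B.commutant, Commute (amp κ H z) R) ∧
          ‖S - R‖ ≤ D * (2 * (K * δ)) := by
      intro S hSs hSc hS1
      obtain ⟨R, -, hR1, hR2⟩ := hR (Alg B.commutant) (Big κ H) σ S (2 * (K * δ)) hSs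
        (by positivity) fun z => by
          obtain ⟨w, hw, -, hzw⟩ := Linear.exists_near_of_ball hcom z.2
          have e : S * σ z - σ z * S =
              S * amp κ H ((z : H →L[ℂ] H) - w) - amp κ H ((z : H →L[ℂ] H) - w) * S := by
            rw [map_sub, mul_sub, sub_mul, (hSc w hw).eq, sub_sub_sub_cancel_right]
            rfl
          rw [e]
          refine (norm_sub_le _ _).trans ?_
          have h1 : ‖amp κ H ((z : H →L[ℂ] H) - w)‖ ≤ K * δ * ‖z‖ :=
            (norm_amp _).trans_le hzw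
          have h2 := (norm_mul_le S (amp κ H ((z : H →L[ℂ] H) - w))).trans
            ((mul_le_mul hS1 h1 (norm_nonneg _) zero_le_one).trans_eq (one_mul _))
          have h3 := (norm_mul_le (amp κ H ((z : H →L[ℂ] H) - w)) S).trans
            ((mul_le_mul h1 hS1 (norm_nonneg _) (by positivity)).trans_eq (mul_one _))
          linarith
      exact ⟨R, fun z hz => (hR1 ⟨z, hz⟩).symm, hR2⟩
    have hTs : ∀ z ∈ A.commutant, Commute (amp κ H z) (star T) := fun z hz => by
      have := hTc.1 _ (star_mem hz)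
      rw [map_star] at this
      exact commute_star_comm.1 this
    have h1 : ∀ z ∈ A.commutant, Commute (amp κ H z) (realPart T : Big κ H →L[ℂ] Big κ H) :=
      fun z hz => by
        rw [realPart_apply_coe]
        exact ((hTc.1 z hz).add_right (hTs z hz)).smul_right _
    have h2 : ∀ z ∈ A.commutant, Commute (amp κ H z) (imaginaryPart T : Big κ H →L[ℂ] Big κ H) :=
      fun z hz => by
        rw [imaginaryPart_apply_coe]
        exact (((hTc.1 z hz).sub_right (hTs z hz)).smul_right _).smul_right _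
    obtain ⟨R₁, hR₁, hd₁⟩ := key _ (realPart T).2 h1 ((realPart.norm_le T).trans hT1)
    obtain ⟨R₂, hR₂, hd₂⟩ := key _ (imaginaryPart T).2 h2 ((imaginaryPart.norm_le T).trans hT1)
    have hd : ‖T - (R₁ + Complex.I • R₂)‖ ≤ 4 * D * (K * δ) := by
      have e : T - (R₁ + Complex.I • R₂) = ((realPart T : Big κ H →L[ℂ] Big κ H) - R₁) +
          Complex.I • ((imaginaryPart T : Big κ H →L[ℂ] Big κ H) - R₂) := by
        conv_lhs => rw [← realPart_add_I_smul_imaginaryPart T]
        rw [smul_sub]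
        abel
      rw [e]
      refine (norm_add_le _ _).trans ?_
      rw [norm_smul, Complex.norm_I, one_mul]
      linarith
    obtain ⟨S, hS, hTS⟩ := exists_mem_tens_near hG (M := B) hTc.2
      (y := R₁ + Complex.I • R₂) fun z hz => (hR₁ z hz).add_right ((hR₂ z hz).smul_right _)
    have hle := hTS.trans hd
    -- shrink into the unit ball
    set r := max 1 ‖S‖ with hr
    have hr1 : 1 ≤ r := le_max_left _ _
    refine ⟨((r⁻¹ : ℝ) : ℂ) • S, (tens G B).toStarSubalgebra.smul_mem hS _, ?_, ?_⟩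
    · rw [norm_smul, Complex.norm_real, Real.norm_of_nonneg (by positivity)]
      exact (inv_mul_le_iff₀ (by positivity)).2 ((le_max_right _ _).trans_eq (mul_one r).symm)
    · have hSn : ‖S‖ ≤ 1 + 4 * D * (K * δ) := by
        have := norm_sub_le T (T - S)
        rw [sub_sub_cancel] at this
        linarith
      have e : ‖S - ((r⁻¹ : ℝ) : ℂ) • S‖ ≤ r - 1 := by
        rw [show S - ((r⁻¹ : ℝ) : ℂ) • S = ((1 - r⁻¹ : ℝ) : ℂ) • S by
          push_cast; rw [sub_smul, one_smul]]
        rw [norm_smul, Complex.norm_real,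
          Real.norm_of_nonneg (sub_nonneg.2 (inv_le_one_of_one_le₀ hr1))]
        calc (1 - r⁻¹) * ‖S‖ ≤ (1 - r⁻¹) * r :=
              mul_le_mul_of_nonneg_left (le_max_right _ _) (sub_nonneg.2 (inv_le_one_of_one_le₀ hr1))
          _ = r - 1 := by rw [sub_mul, one_mul, inv_mul_cancel₀ (by positivity)]
      have hr2 : r ≤ 1 + 4 * D * (K * δ) := max_le (by
        have : 0 ≤ D * (K * δ) := by positivity
        linarith) hSn
      have := norm_sub_le_norm_sub_add_norm_sub T S (((r⁻¹ : ℝ) : ℂ) • S)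
      linarith
  exact ⟨side (hC H M N δ hδ hMN).2, side (hC H M N δ hδ hMN).1⟩

end Vale.Agent.P096.III.Tensor
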