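import Mathlib

/-!
# P096, type III: one matrix leg

On `ℂ^m ⊗ ℂ^m`, written in a basis whose first vector is `∑ √c_i e_i ⊗ e_i`: the two factors, a
finite unitary group spanning the right factor, and the action of both on the first vector.
-/

namespace Vale.Agent.P096.III.Tensor

open scoped Matrix Kronecker

variable {m : ℕ}

/-- The labels of a leg. -/
abbrev Pair (m : ℕ) : Type := Fin m × Fin m

/-- The weights. -/
structure IsWeight (c : Fin m → ℝ) : Prop where
  pos : ∀ i, 0 < c i
  sum : ∑ i, c i = 1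

variable [NeZero m] (c : Fin m → ℝ)

/-- A unitary change of basis sends the first vector to the weighted diagonal. -/
theorem exists_frame (hc : IsWeight c) : ∃ U ∈ Matrix.unitaryGroup (Pair m) ℂ,
    ∀ p, U p 0 = if p.1 = p.2 then (√(c p.1) : ℂ) else 0 := by
  classical
  let ξ : EuclideanSpace ℂ (Pair m) :=
    WithLp.toLp 2 fun p : Pair m => if p.1 = p.2 then (√(c p.1) : ℂ) else 0
  have hξ : ‖ξ‖ = 1 := by
    rw [EuclideanSpace.norm_eq]
    have : ∑ p : Pair m, ‖ξ p‖ ^ 2 = 1 := by
      rw [← hc.sum, Fintype.sum_prod_type]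
      refine Finset.sum_congr rfl fun i _ => ?_
      rw [Finset.sum_eq_single i (fun k _ hk => by simp [ξ, Ne.symm hk]) (by simp)]
      simp [ξ, Real.sq_sqrt (hc.pos i).le]
    rw [this, Real.sqrt_one]
  obtain ⟨b, hb⟩ := Orthonormal.exists_orthonormalBasis_extension_of_card_eq
    (ι := Pair m) (v := fun _ => ξ) (s := {(0 : Pair m)}) (finrank_euclideanSpace (𝕜 := ℂ))
    ⟨fun _ => hξ, fun i j hij => absurd (Subsingleton.elim i j) hij⟩
  refine ⟨_, (EuclideanSpace.basisFun (Pair m) ℂ).toMatrix_orthonormalBasis_mem_unitary b,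
    fun p => ?_⟩
  simp [Module.Basis.toMatrix_apply, hb 0 rfl, ξ]

open Classical in
/-- The change of basis. -/
noncomputable def frame : unitary (Matrix (Pair m) (Pair m) ℂ) :=
  if h : IsWeight c then ⟨(exists_frame c h).choose, (exists_frame c h).choose_spec.1⟩ else 1

theorem frame_col {c : Fin m → ℝ} (hc : IsWeight c) (p : Pair m) :
    (frame c : Matrix (Pair m) (Pair m) ℂ) p 0 = if p.1 = p.2 then (√(c p.1) : ℂ) else 0 := by
  rw [frame, dif_pos hc]
  exact (exists_frame c hc).choose_spec.2 p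

/-- The left factor. -/
noncomputable def legL : Matrix (Fin m) (Fin m) ℂ →⋆ₐ[ℂ] Matrix (Pair m) (Pair m) ℂ :=
  (Unitary.conjStarAlgAut ℂ (Matrix (Pair m) (Pair m) ℂ) (star (frame c))).toStarAlgHom.comp
    { toFun := fun A => A ⊗ₖ (1 : Matrix (Fin m) (Fin m) ℂ)
      map_one' := Matrix.one_kronecker_one
      map_mul' := fun A B => by rw [← Matrix.mul_kronecker_mul, one_mul]
      map_zero' := Matrix.zero_kronecker _
      map_add' := fun A B => Matrix.add_kronecker A B _
      commutes' := fun r => by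
        rw [Algebra.algebraMap_eq_smul_one, Algebra.algebraMap_eq_smul_one, Matrix.smul_kronecker,
          Matrix.one_kronecker_one]
      map_star' := fun A => by
        rw [Matrix.star_eq_conjTranspose, Matrix.star_eq_conjTranspose,
          Matrix.conjTranspose_kronecker, Matrix.conjTranspose_one] }

/-- The right factor. -/
noncomputable def legR : Matrix (Fin m) (Fin m) ℂ →⋆ₐ[ℂ] Matrix (Pair m) (Pair m) ℂ :=
  (Unitary.conjStarAlgAut ℂ (Matrix (Pair m) (Pair m) ℂ) (star (frame c))).toStarAlgHom.comp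
    { toFun := fun B => (1 : Matrix (Fin m) (Fin m) ℂ) ⊗ₖ B
      map_one' := Matrix.one_kronecker_one
      map_mul' := fun A B => by rw [← Matrix.mul_kronecker_mul, one_mul]
      map_zero' := Matrix.kronecker_zero _
      map_add' := fun A B => Matrix.kronecker_add _ A B
      commutes' := fun r => by
        rw [Algebra.algebraMap_eq_smul_one, Algebra.algebraMap_eq_smul_one, Matrix.kronecker_smul,
          Matrix.one_kronecker_one]
      map_star' := fun A => by
        rw [Matrix.star_eq_conjTranspose, Matrix.star_eq_conjTranspose,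
          Matrix.conjTranspose_kronecker, Matrix.conjTranspose_one] }

theorem legL_apply (A : Matrix (Fin m) (Fin m) ℂ) :
    legL c A = star (frame c : Matrix (Pair m) (Pair m) ℂ) * (A ⊗ₖ (1 : Matrix (Fin m) (Fin m) ℂ)) *
      (frame c : Matrix (Pair m) (Pair m) ℂ) :=
  (Unitary.conjStarAlgAut_star_apply (S := ℂ) (frame c) _)

theorem legR_apply (B : Matrix (Fin m) (Fin m) ℂ) :
    legR c B = star (frame c : Matrix (Pair m) (Pair m) ℂ) * ((1 : Matrix (Fin m) (Fin m) ℂ) ⊗ₖ B) *
      (frame c : Matrix (Pair m) (Pair m) ℂ) :=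
  (Unitary.conjStarAlgAut_star_apply (S := ℂ) (frame c) _)

theorem commute_legL_legR (A B : Matrix (Fin m) (Fin m) ℂ) : Commute (legL c A) (legR c B) := by
  have h : Commute (A ⊗ₖ (1 : Matrix (Fin m) (Fin m) ℂ)) ((1 : Matrix (Fin m) (Fin m) ℂ) ⊗ₖ B) := by
    show _ * _ = _ * _
    rw [← Matrix.mul_kronecker_mul, ← Matrix.mul_kronecker_mul, one_mul, mul_one, one_mul, mul_one]
  exact h.map (Unitary.conjStarAlgAut ℂ (Matrix (Pair m) (Pair m) ℂ) (star (frame c))).toStarAlgHom

/-- A signed permutation matrix. -/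
def sgnPerm (x : (Fin m → Bool) × Equiv.Perm (Fin m)) : Matrix (Fin m) (Fin m) ℂ :=
  Matrix.of fun a b => if x.2 a = b then (if x.1 a then 1 else -1) else 0

omit [NeZero m] in
theorem sgnPerm_one : sgnPerm (m := m) (fun _ => true, 1) = 1 := by
  ext a b
  simp [sgnPerm, Matrix.one_apply]

omit [NeZero m] in
theorem sgnPerm_mul (x y : (Fin m → Bool) × Equiv.Perm (Fin m)) :
    sgnPerm x * sgnPerm y = sgnPerm (fun a => x.1 a == y.1 (x.2 a), x.2.trans y.2) := by
  ext a b
  simp only [Matrix.mul_apply, sgnPerm, Matrix.of_apply, ite_mul, zero_mul]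
  rw [Finset.sum_ite_eq Finset.univ, if_pos (Finset.mem_univ _)]
  by_cases h : y.2 (x.2 a) = b <;> rcases Bool.eq_false_or_eq_true (x.1 a) with h1 | h1 <;>
    rcases Bool.eq_false_or_eq_true (y.1 (x.2 a)) with h2 | h2 <;> simp [h, h1, h2]

omit [NeZero m] in
theorem star_sgnPerm (x : (Fin m → Bool) × Equiv.Perm (Fin m)) :
    star (sgnPerm x) = sgnPerm (fun a => x.1 (x.2.symm a), x.2.symm) := by
  ext a b
  simp only [Matrix.star_apply, sgnPerm, Matrix.of_apply]
  by_cases h : x.2 b = a
  · subst h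
    simp [apply_ite (star : ℂ → ℂ)]
  · rw [if_neg h, if_neg, star_zero]
    intro h'
    exact h (by rw [← h', Equiv.apply_symm_apply])

/-- A finite unitary group spanning the right factor. -/
noncomputable def legG : Finset (Matrix (Pair m) (Pair m) ℂ) :=
  Finset.univ.image fun x => legR c (sgnPerm x)

theorem mem_legG {g : Matrix (Pair m) (Pair m) ℂ} :
    g ∈ legG c ↔ ∃ x, legR c (sgnPerm x) = g := by simp [legG]

theorem legG_one : 1 ∈ legG c :=
  (mem_legG c).2 ⟨(fun _ => true, 1), by rw [sgnPerm_one, map_one]⟩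

theorem legG_mul {a b : Matrix (Pair m) (Pair m) ℂ} (ha : a ∈ legG c) (hb : b ∈ legG c) :
    a * b ∈ legG c := by
  obtain ⟨x, rfl⟩ := (mem_legG c).1 ha
  obtain ⟨y, rfl⟩ := (mem_legG c).1 hb
  exact (mem_legG c).2 ⟨_, by rw [← map_mul, sgnPerm_mul]⟩

theorem legG_star {a : Matrix (Pair m) (Pair m) ℂ} (ha : a ∈ legG c) : star a ∈ legG c := by
  obtain ⟨x, rfl⟩ := (mem_legG c).1 ha
  exact (mem_legG c).2 ⟨_, by rw [← map_star, star_sgnPerm]⟩

theorem legG_unitary {a : Matrix (Pair m) (Pair m) ℂ} (ha : a ∈ legG c) :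
    a ∈ unitary (Matrix (Pair m) (Pair m) ℂ) := by
  obtain ⟨x, rfl⟩ := (mem_legG c).1 ha
  refine Unitary.map_mem _ (Matrix.mem_unitaryGroup_iff'.2 ?_)
  rw [star_sgnPerm, sgnPerm_mul, ← sgnPerm_one (m := m)]
  congr 1
  refine Prod.ext (funext fun a => ?_) (Equiv.ext fun a => by simp)
  simp

/-- The group spans the right factor. -/
theorem legR_mem_span (B : Matrix (Fin m) (Fin m) ℂ) :
    legR c B ∈ Submodule.span ℂ (legG c : Set (Matrix (Pair m) (Pair m) ℂ)) := by
  have hs : ∀ a b : Fin m, Matrix.single a b (1 : ℂ) = (2⁻¹ : ℂ) •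
      (sgnPerm (fun _ => true, Equiv.swap a b) +
        sgnPerm (fun i => decide (i = a), Equiv.swap a b)) := by
    intro a b
    ext i j
    simp only [Matrix.smul_apply, Matrix.add_apply, sgnPerm, Matrix.of_apply, Matrix.single_apply,
      smul_eq_mul]
    by_cases hi : i = a
    · subst hi
      by_cases hj : b = j <;> simp [hj]
      norm_num
    · by_cases hj : Equiv.swap a b i = j <;> simp [hi, hj, Ne.symm hi]
  rw [Matrix.matrix_eq_sum_single B]
  simp only [map_sum]
  refine Submodule.sum_mem _ fun a _ => Submodule.sum_mem _ fun b _ => ?_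
  rw [show Matrix.single a b (B a b) = B a b • Matrix.single a b (1 : ℂ) by
    rw [Matrix.smul_single, smul_eq_mul, mul_one], hs, map_smul, map_smul, map_add]
  exact Submodule.smul_mem _ _ (Submodule.smul_mem _ _ (add_mem
    (Submodule.subset_span ((mem_legG c).2 ⟨_, rfl⟩))
    (Submodule.subset_span ((mem_legG c).2 ⟨_, rfl⟩))))

theorem commute_legR_of_legG {X : Matrix (Pair m) (Pair m) ℂ}
    (hX : ∀ g ∈ legG c, Commute g X) (B : Matrix (Fin m) (Fin m) ℂ) : Commute (legR c B) X := by
  refine Submodule.span_induction (p := fun y _ => Commute y X) (fun y hy => hX y hy)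
    (Commute.zero_left X) (fun y z _ _ h h' => h.add_left h') (fun r y _ h => h.smul_left r)
    (legR_mem_span c B)

/-- What commutes with the group is the left factor. -/
theorem exists_legL_of_commute {X : Matrix (Pair m) (Pair m) ℂ}
    (hX : ∀ g ∈ legG c, Commute g X) : ∃ A, X = legL c A := by
  set U := (frame c : Matrix (Pair m) (Pair m) ℂ) with hUd
  have hU : star U * U = 1 := Unitary.star_mul_self_of_mem (frame c).2
  have hU' : U * star U = 1 := Unitary.mul_star_self_of_mem (frame c).2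
  set Y := U * X * star U with hY
  have hc : ∀ B : Matrix (Fin m) (Fin m) ℂ,
      ((1 : Matrix (Fin m) (Fin m) ℂ) ⊗ₖ B) * Y = Y * ((1 : Matrix (Fin m) (Fin m) ℂ) ⊗ₖ B) := by
    intro B
    have e := congrArg (fun Z => U * Z * star U) (commute_legR_of_legG c hX B).eq
    simp only [legR_apply, ← hUd] at e
    calc _ = U * (star U * ((1 : Matrix (Fin m) (Fin m) ℂ) ⊗ₖ B) * U * X) * star U := by
          simp only [hY, ← mul_assoc, hU', one_mul]
      _ = _ := e
      _ = _ := by simp only [hY, mul_assoc, hU', mul_one]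
  refine ⟨Matrix.of fun i j => Y (i, 0) (j, 0), ?_⟩
  have e : Y = (Matrix.of fun i j => Y (i, 0) (j, 0)) ⊗ₖ (1 : Matrix (Fin m) (Fin m) ℂ) := by
    ext ⟨i, k⟩ ⟨j, l⟩
    have := congrFun (congrFun (hc (Matrix.single l 0 1)) (i, k)) (j, 0)
    simp only [Matrix.mul_apply, Matrix.kroneckerMap_apply, Matrix.one_apply, Matrix.single_apply,
      Fintype.sum_prod_type, ite_mul, mul_ite, zero_mul, mul_zero, one_mul, mul_one,
      Finset.sum_ite_eq, Finset.sum_ite_eq', Finset.mem_univ, if_true, ite_and] at this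
    simp only [Matrix.kroneckerMap_apply, Matrix.one_apply, Matrix.of_apply, mul_ite, mul_one,
      mul_zero]
    rcases eq_or_ne k l with rfl | hkl
    · rw [if_pos rfl]
      simpa using this.symm
    · rw [if_neg hkl]
      simpa [Ne.symm hkl] using this.symm
  rw [legL_apply, ← hUd, ← e]
  simp only [hY, ← mul_assoc, hU, one_mul]
  rw [mul_assoc, hU, mul_one]

/-- The transpose twisted by the weights. -/
noncomputable def legT (A : Matrix (Fin m) (Fin m) ℂ) : Matrix (Fin m) (Fin m) ℂ :=
  Matrix.of fun k i => A i k * (√(c k) : ℂ) / (√(c i) : ℂ)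

variable {c}

theorem legL_col (hc : IsWeight c) (A : Matrix (Fin m) (Fin m) ℂ) (p : Pair m) :
    legL c A p 0 = ∑ q : Pair m, star (frame c : Matrix (Pair m) (Pair m) ℂ) p q *
      (A q.1 q.2 * (√(c q.2) : ℂ)) := by
  rw [legL_apply, mul_assoc, Matrix.mul_apply]
  refine Finset.sum_congr rfl fun q _ => ?_
  congr 1
  rw [Matrix.mul_apply, Fintype.sum_prod_type]
  simp [Matrix.kroneckerMap_apply, Matrix.one_apply, frame_col hc]

theorem legR_col (hc : IsWeight c) (B : Matrix (Fin m) (Fin m) ℂ) (p : Pair m) :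
    legR c B p 0 = ∑ q : Pair m, star (frame c : Matrix (Pair m) (Pair m) ℂ) p q *
      (B q.2 q.1 * (√(c q.1) : ℂ)) := by
  rw [legR_apply, mul_assoc, Matrix.mul_apply]
  refine Finset.sum_congr rfl fun q _ => ?_
  congr 1
  rw [Matrix.mul_apply, Fintype.sum_prod_type]
  simp [Matrix.kroneckerMap_apply, Matrix.one_apply, frame_col hc]

omit [NeZero m] in
theorem sqrt_ne (hc : IsWeight c) (i : Fin m) : (√(c i) : ℂ) ≠ 0 :=
  Complex.ofReal_ne_zero.2 (Real.sqrt_pos.2 (hc.pos i)).ne'

/-- Left and right agree on the first vector. -/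
theorem legL_col_eq (hc : IsWeight c) (A : Matrix (Fin m) (Fin m) ℂ) (p : Pair m) :
    legL c A p 0 = legR c (legT c A) p 0 := by
  rw [legL_col hc, legR_col hc]
  refine Finset.sum_congr rfl fun q _ => ?_
  rw [legT, Matrix.of_apply, div_mul_cancel₀ _ (sqrt_ne hc q.1)]

theorem legL_zero_zero (hc : IsWeight c) (A : Matrix (Fin m) (Fin m) ℂ) :
    legL c A 0 0 = ∑ i, (c i : ℂ) * A i i := by
  rw [legL_col hc, Fintype.sum_prod_type]
  refine Finset.sum_congr rfl fun i _ => ?_
  rw [Finset.sum_eq_single i (fun k _ hk => ?_) (by simp)]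
  · rw [Matrix.star_apply, frame_col hc, if_pos rfl, RCLike.star_def, Complex.conj_ofReal,
      mul_left_comm, ← Complex.ofReal_mul, Real.mul_self_sqrt (hc.pos i).le, mul_comm]
  · simp [Matrix.star_apply, frame_col hc, Ne.symm hk]

/-- Every vector is a first column of the left factor. -/
theorem exists_legL_col (hc : IsWeight c) (a : Pair m) :
    ∃ A, (fun p => legL c A p 0) = Pi.single a 1 := by
  refine ⟨Matrix.of fun i k => (frame c : Matrix (Pair m) (Pair m) ℂ) (i, k) a / (√(c k) : ℂ),
    funext fun p => ?_⟩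
  rw [legL_col hc]
  simp only [Matrix.of_apply, div_mul_cancel₀ _ (sqrt_ne hc _), Prod.mk.eta]
  rw [← Matrix.mul_apply, Unitary.star_mul_self_of_mem (frame c).2, Matrix.one_apply,
    Pi.single_apply]

/-- Every vector is a first column of the right factor. -/
theorem exists_legR_col (hc : IsWeight c) (a : Pair m) :
    ∃ B, (fun p => legR c B p 0) = Pi.single a 1 := by
  refine ⟨Matrix.of fun k i => (frame c : Matrix (Pair m) (Pair m) ℂ) (i, k) a / (√(c i) : ℂ),
    funext fun p => ?_⟩
  rw [legR_col hc]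
  simp only [Matrix.of_apply, div_mul_cancel₀ _ (sqrt_ne hc _), Prod.mk.eta]
  rw [← Matrix.mul_apply, Unitary.star_mul_self_of_mem (frame c).2, Matrix.one_apply,
    Pi.single_apply]

/-- The two factors generate all matrices of the leg. -/
theorem matrix_mem_span (c : Fin m → ℝ) (X : Matrix (Pair m) (Pair m) ℂ) :
    X ∈ Submodule.span ℂ (Set.range fun AB : Matrix (Fin m) (Fin m) ℂ × Matrix (Fin m) (Fin m) ℂ =>
      legL c AB.1 * legR c AB.2) := by
  set U := (frame c : Matrix (Pair m) (Pair m) ℂ)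
  have hU : star U * U = 1 := Unitary.star_mul_self_of_mem (frame c).2
  have e : X = star U * (U * X * star U) * U := by
    simp only [← mul_assoc, hU, one_mul]
    rw [mul_assoc, hU, mul_one]
  rw [e, Matrix.matrix_eq_sum_single (U * X * star U), Finset.mul_sum, Finset.sum_mul]
  refine Submodule.sum_mem _ fun p _ => ?_
  rw [Finset.mul_sum, Finset.sum_mul]
  refine Submodule.sum_mem _ fun q _ => ?_
  generalize (U * X * star U) p q = r
  refine Submodule.subset_span ⟨(Matrix.single p.1 q.1 r, Matrix.single p.2 q.2 1), ?_⟩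
  have h := map_mul (Unitary.conjStarAlgAut ℂ (Matrix (Pair m) (Pair m) ℂ) (star (frame c)))
    (Matrix.single p.1 q.1 r ⊗ₖ (1 : Matrix (Fin m) (Fin m) ℂ))
    ((1 : Matrix (Fin m) (Fin m) ℂ) ⊗ₖ Matrix.single p.2 q.2 (1 : ℂ))
  rw [← Matrix.mul_kronecker_mul, mul_one, one_mul, Matrix.single_kronecker_single, mul_one] at h
  simp only [Unitary.conjStarAlgAut_star_apply] at h
  show legL c _ * legR c _ = _
  rw [legL_apply, legR_apply, ← h]

end Vale.Agent.P096.III.Tensor
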