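import Vale.Agent.P096.III.Tensor.Vac
import Vale.Agent.P096.III.Tensor.Frame

/-!
# P096, type III: the algebra with countably many matrix legs

`tens (legsG c) M` is `M` tensor one matrix algebra per site, each in standard form for a state
with prescribed positive weights.
-/

namespace Vale.Agent.P096.III.Tensor

open scoped InnerProductSpace Topology

universe u

variable {d : ℕ → ℕ} [∀ n, NeZero (d n)] (c : ∀ n, Fin (d n) → ℝ)
variable {H : Type u} [NormedAddCommGroup H] [InnerProductSpace ℂ H] [CompleteSpace H]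
variable {M : VonNeumannAlgebra H} {Ω : H}

/-- The labels of all legs. -/
abbrev Cfg (d : ℕ → ℕ) : ℕ → Type := fun n => Pair (d n)

/-- The groups of the right factors. -/
noncomputable def legsG (n : ℕ) : Finset (Matrix (Cfg d n) (Cfg d n) ℂ) := legG (c n)

theorem isUGroup_legsG : IsUGroup (legsG c) where
  one_mem n := legG_one (c n)
  mul_mem n a ha b hb := legG_mul (c n) ha hb
  star_mem n a ha := legG_star (c n) ha
  unit n a ha := legG_unitary (c n) ha

variable (H) in
/-- The left factor of the leg at site `n`. -/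
noncomputable def siteL (n : ℕ) :
    Matrix (Fin (d n)) (Fin (d n)) ℂ →⋆ₐ[ℂ] (Big (Cfg d) H →L[ℂ] Big (Cfg d) H) :=
  (site H n).comp (legL (c n))

variable (H) in
/-- The right factor of the leg at site `n`. -/
noncomputable def siteR (n : ℕ) :
    Matrix (Fin (d n)) (Fin (d n)) ℂ →⋆ₐ[ℂ] (Big (Cfg d) H →L[ℂ] Big (Cfg d) H) :=
  (site H n).comp (legR (c n))

theorem commute_legsG_legL (n : ℕ) (A : Matrix (Fin (d n)) (Fin (d n)) ℂ) :
    ∀ g ∈ legsG c n, Commute g (legL (c n) A) := fun g hg => by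
  obtain ⟨x, rfl⟩ := (mem_legG (c n)).1 hg
  exact (commute_legL_legR (c n) A _).symm

theorem siteL_mem_core (n : ℕ) (A : Matrix (Fin (d n)) (Fin (d n)) ℂ) :
    siteL c H n A ∈ core (legsG c) M :=
  site_mem_core n (commute_legsG_legL c n A)

theorem siteL_mem (n : ℕ) (A : Matrix (Fin (d n)) (Fin (d n)) ℂ) :
    siteL c H n A ∈ tens (legsG c) M :=
  site_mem (isUGroup_legsG c) n (commute_legsG_legL c n A)

theorem siteR_mem_commutant (n : ℕ) (B : Matrix (Fin (d n)) (Fin (d n)) ℂ) :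
    siteR c H n B ∈ (tens (legsG c) M).commutant := by
  refine VonNeumannAlgebra.mem_commutant_iff.2 fun T hT => ?_
  have h : ∀ g ∈ legsG c n, Commute (site H n g) T :=
    ((mem_tens (isUGroup_legsG c)).1 hT).2 n
  refine (Submodule.span_induction (p := fun y _ => Commute (site H n y) T)
    (fun y hy => h y hy) (by rw [map_zero]; exact Commute.zero_left T)
    (fun y z _ _ h₁ h₂ => by rw [map_add]; exact h₁.add_left h₂)
    (fun r y _ h₁ => by rw [map_smul]; exact h₁.smul_left r) (legR_mem_span (c n) B)).symm.eq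

theorem amp_mem_commutant {y : H →L[ℂ] H} (hy : y ∈ M.commutant) :
    amp (Cfg d) H y ∈ (tens (legsG c) M).commutant :=
  VonNeumannAlgebra.mem_commutant_iff.2 fun _ hT =>
    (((mem_tens (isUGroup_legsG c)).1 hT).1 y hy).symm.eq

/-- Close algebras stay close with the legs. -/
theorem exists_near_legs :
    ∃ C : ℝ, 0 ≤ C ∧ ∀ (d : ℕ → ℕ) [∀ n, NeZero (d n)] (c : ∀ n, Fin (d n) → ℝ)
      (H : Type u) [NormedAddCommGroup H] [InnerProductSpace ℂ H] [CompleteSpace H]
      (M N : VonNeumannAlgebra H) (δ : ℝ), 0 ≤ δ → Near M N δ →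
      Near (tens (legsG c) M) (tens (legsG c) N) (C * δ) := by
  obtain ⟨C, hC, h⟩ := exists_near_tens.{u}
  exact ⟨C, hC, fun d _ c H _ _ _ M N δ hδ hMN =>
    h (Cfg d) (legsG c) (isUGroup_legsG c) H M N δ hδ hMN⟩

variable {c}

theorem gen_left (hc : ∀ n, IsWeight (c n)) (n : ℕ) (a : Cfg d n) :
    (Pi.single a 1 : Cfg d n → ℂ) ∈
      Submodule.span ℂ ((fun A b => A b 0) '' {A | ∀ g ∈ legsG c n, Commute g A}) := by
  obtain ⟨A, hA⟩ := exists_legL_col (hc n) a
  exact Submodule.subset_span ⟨_, commute_legsG_legL c n A, hA⟩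

theorem gen_right (hc : ∀ n, IsWeight (c n)) (n : ℕ) (a : Cfg d n) :
    (Pi.single a 1 : Cfg d n → ℂ) ∈
      Submodule.span ℂ ((fun A b => A b 0) ''
        (legsG c n : Set (Matrix (Cfg d n) (Cfg d n) ℂ))) := by
  obtain ⟨B, hB⟩ := exists_legR_col (hc n) a
  let col : Matrix (Cfg d n) (Cfg d n) ℂ →ₗ[ℂ] (Cfg d n → ℂ) :=
    { toFun := fun A b => A b 0
      map_add' := fun _ _ => rfl
      map_smul' := fun _ _ => rfl }
  rw [← hB]
  show col (legR (c n) B) ∈ Submodule.span ℂ (col '' _)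
  rw [Submodule.span_image]
  exact Submodule.mem_map_of_mem (legR_mem_span (c n) B)

/-- The product vector is cyclic and separating. -/
theorem isCS_legs (hc : ∀ n, IsWeight (c n)) (hΩ : P132.IsCS M Ω) :
    P132.IsCS (tens (legsG c) M) (vac (Cfg d) Ω) :=
  isCS_vac (isUGroup_legsG c) (gen_left hc) (gen_right hc) hΩ

/-- Finite stage vectors are dense. -/
theorem cyclic_legs (hc : ∀ n, IsWeight (c n)) (hΩ : P132.IsCS M Ω) (v : Big (Cfg d) H) {η : ℝ}
    (hη : 0 < η) : ∃ T ∈ core (legsG c) M, ‖T (vac (Cfg d) Ω) - v‖ ≤ η :=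
  cyclic_core (gen_left hc) hΩ.cyclic v η hη

/-- On a vector that is the reference at site `n` the left factor acts as the right one. -/
theorem siteL_single (hc : ∀ n, IsWeight (c n)) {n : ℕ} (A : Matrix (Fin (d n)) (Fin (d n)) ℂ)
    {j : Lbl (Cfg d)} (hj : j n = 0) (h : H) :
    siteL c H n A (lp.single 2 j h) = siteR c H n (legT (c n) A) (lp.single 2 j h) := by
  show site H n _ _ = site H n _ _
  rw [site_single, site_single, hj]
  exact Finset.sum_congr rfl fun p _ => congrArg (fun r => r • _) (legL_col_eq (hc n) A p)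

/-- The witness in the commutant of a left factor. -/
theorem siteL_vac (hc : ∀ n, IsWeight (c n)) (n : ℕ) (A : Matrix (Fin (d n)) (Fin (d n)) ℂ) :
    siteL c H n A (vac (Cfg d) Ω) = siteR c H n (legT (c n) A) (vac (Cfg d) Ω) :=
  siteL_single hc A rfl Ω

/-- The product formula. -/
theorem blk00_mul_siteL (hc : ∀ n, IsWeight (c n)) {n N : ℕ}
    {T : Big (Cfg d) H →L[ℂ] Big (Cfg d) H} (hT : Away N T) (hn : N ≤ n)
    (A : Matrix (Fin (d n)) (Fin (d n)) ℂ) :
    blk 0 0 (T * siteL c H n A) = (∑ i, (c n i : ℂ) * A i i) • blk 0 0 T := by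
  rw [← legL_zero_zero (hc n)]
  exact blk00_mul_site (hT n hn) _

theorem inner_vac_siteL (hc : ∀ n, IsWeight (c n)) {n N : ℕ}
    {T : Big (Cfg d) H →L[ℂ] Big (Cfg d) H} (hT : Away N T) (hn : N ≤ n)
    (A : Matrix (Fin (d n)) (Fin (d n)) ℂ) :
    ⟪vac (Cfg d) Ω, T (siteL c H n A (vac (Cfg d) Ω))⟫_ℂ =
      (∑ i, (c n i : ℂ) * A i i) * ⟪vac (Cfg d) Ω, T (vac (Cfg d) Ω)⟫_ℂ := by
  rw [← mul_apply_eq_comp, inner_vac, blk00_mul_siteL hc hT hn, inner_vac, smul_apply,
    inner_smul_right]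

/-- The centre is the centre of `M`. -/
theorem exists_central {T : Big (Cfg d) H →L[ℂ] Big (Cfg d) H}
    (hT : T ∈ tens (legsG c) M) (hcomm : ∀ S ∈ core (legsG c) M, Commute S T) :
    ∃ z, z ∈ M ∧ z ∈ M.commutant ∧ T = amp (Cfg d) H z := by
  have hsite : ∀ n, ∀ X : Matrix (Cfg d n) (Cfg d n) ℂ, Commute (site H n X) T := fun n X => by
    refine Submodule.span_induction (p := fun y _ => Commute (site H n y) T) ?_
      (by rw [map_zero]; exact Commute.zero_left T)
      (fun y z _ _ h₁ h₂ => by rw [map_add]; exact h₁.add_left h₂)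
      (fun r y _ h₁ => by rw [map_smul]; exact h₁.smul_left r) (matrix_mem_span (c n) X)
    rintro _ ⟨⟨A, B⟩, rfl⟩
    rw [map_mul]
    exact (hcomm _ (siteL_mem_core c n A)).mul_left
      (VonNeumannAlgebra.mem_commutant_iff.1 (siteR_mem_commutant c n B) T hT).symm
  have e := eq_amp_of_commute_site hsite
  refine ⟨_, blk_mem (isUGroup_legsG c) hT 0 0, VonNeumannAlgebra.mem_commutant_iff.2 fun x hx => ?_,
    e⟩
  have h := congrArg (fun S => blk (0 : Lbl (Cfg d)) 0 S) (hcomm _ (amp_mem_core hx)).eq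
  rw [e] at h
  rwa [← map_mul, ← map_mul, blk_amp, blk_amp] at h

end Vale.Agent.P096.III.Tensor
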