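import Mathlib

/-!
# P096, type III: matrix copies at the sites of an infinite product

The product of countably many copies of a finite dimensional space, with a reference basis vector
at every site, is realised on finitely supported labels; so `H` tensor the product is an `ℓ²` sum
of copies of `H`.
-/

namespace Vale.Agent.P096.III.Tensor

open scoped InnerProductSpace ENNReal Topology
open Filter

universe u

variable {κ : ℕ → Type} [∀ n, Fintype (κ n)] [∀ n, DecidableEq (κ n)] [∀ n, Zero (κ n)]

variable (κ) in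
/-- The labels. -/
abbrev Lbl : Type := Π₀ n, κ n

/-- Change the entry at one site. -/
noncomputable def put (i : Lbl κ) (n : ℕ) (a : κ n) : Lbl κ := DFinsupp.update i n a

omit [∀ n, Fintype (κ n)] [∀ n, DecidableEq (κ n)] in
theorem put_self (i : Lbl κ) (n : ℕ) : put i n (i n) = i := by simp [put]

omit [∀ n, Fintype (κ n)] [∀ n, DecidableEq (κ n)] in
theorem put_apply_same (i : Lbl κ) (n : ℕ) (a : κ n) : put i n a n = a := by
  simp [put]

omit [∀ n, Fintype (κ n)] [∀ n, DecidableEq (κ n)] in
theorem put_apply_ne (i : Lbl κ) {n j : ℕ} (h : j ≠ n) (a : κ n) : put i n a j = i j := by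
  simp [put, h]

omit [∀ n, Fintype (κ n)] [∀ n, DecidableEq (κ n)] in
theorem put_put (i : Lbl κ) (n : ℕ) (a b : κ n) : put (put i n a) n b = put i n b := by
  ext j
  rcases eq_or_ne j n with rfl | h
  · simp [put_apply_same]
  · simp [put_apply_ne _ h]

omit [∀ n, Fintype (κ n)] [∀ n, DecidableEq (κ n)] in
theorem put_comm (i : Lbl κ) {n j : ℕ} (h : n ≠ j) (a : κ n) (b : κ j) :
    put (put i n a) j b = put (put i j b) n a := by
  ext l
  rcases eq_or_ne l n with rfl | hn
  · simp [put_apply_same, put_apply_ne _ h]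
  rcases eq_or_ne l j with rfl | hj
  · simp [put_apply_same, put_apply_ne _ hn]
  · simp [put_apply_ne _ hn, put_apply_ne _ hj]

omit [∀ n, Fintype (κ n)] [∀ n, DecidableEq (κ n)] in
theorem eq_put_iff (i j : Lbl κ) (n : ℕ) (a : κ n) :
    put i n a = j → put j n (i n) = i := by
  rintro rfl
  rw [put_put, put_self]

variable {H : Type u} [NormedAddCommGroup H] [InnerProductSpace ℂ H] [CompleteSpace H]

variable (κ H) in
/-- `H` tensor the product. -/
abbrev Big : Type u := lp (fun _ : Lbl κ => H) 2

omit [∀ n, Fintype (κ n)] [∀ n, DecidableEq (κ n)] [CompleteSpace H] in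
theorem big_ext {A B : Big κ H →L[ℂ] Big κ H} (h : ∀ v i, A v i = B v i) : A = B :=
  ContinuousLinearMap.ext fun v => lp.ext (funext fun i => h v i)

omit [InnerProductSpace ℂ H] [CompleteSpace H] [∀ n, Fintype (κ n)] [∀ n, DecidableEq (κ n)] in
theorem summable_big (v : Big κ H) : Summable fun i => ‖v i‖ ^ 2 := by
  simpa using (lp.memℓp v).summable (p := 2) (by norm_num)

omit [InnerProductSpace ℂ H] [CompleteSpace H] [∀ n, Fintype (κ n)] [∀ n, DecidableEq (κ n)] in
theorem norm_sq_big (v : Big κ H) : ‖v‖ ^ 2 = ∑' i, ‖v i‖ ^ 2 := by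
  simpa using lp.norm_rpow_eq_tsum (p := 2) (by norm_num) v

omit [InnerProductSpace ℂ H] [CompleteSpace H] [∀ n, Fintype (κ n)] [∀ n, DecidableEq (κ n)] in
theorem memℓp_big {f : Lbl κ → H} (h : Summable fun i => ‖f i‖ ^ 2) : Memℓp f 2 :=
  memℓp_gen (by simpa using h)

omit [CompleteSpace H] [∀ n, Fintype (κ n)] in
/-- The pull back along a change at one site is bounded. -/
theorem exists_pull (n : ℕ) (a b : κ n) :
    ∃ T : Big κ H →L[ℂ] Big κ H, ∀ v i, T v i = if i n = a then v (put i n b) else 0 := by
  classical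
  let S : Set (Lbl κ) := {i | i n = a}
  have hinj : Function.Injective fun i : S => put i.1 n b := fun i j h => by
    refine Subtype.ext ?_
    have := congrArg (fun k => put k n a) h
    simp only [put_put] at this
    rwa [show put i.1 n a = i.1 by rw [← i.2]; exact put_self _ _,
      show put j.1 n a = j.1 by rw [← j.2]; exact put_self _ _] at this
  have key : ∀ v : Big κ H, Summable (fun i => ‖(if i n = a then v (put i n b) else 0 : H)‖ ^ 2) ∧
      ∑' i, ‖(if i n = a then v (put i n b) else 0 : H)‖ ^ 2 ≤ ‖v‖ ^ 2 := fun v => by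
    have e : (fun i => ‖(if i n = a then v (put i n b) else 0 : H)‖ ^ 2) =
        S.indicator fun i => ‖v (put i n b)‖ ^ 2 := by
      funext i
      by_cases h : i n = a <;> simp [S, h]
    have hs : Summable fun i : S => ‖v (put i.1 n b)‖ ^ 2 :=
      (summable_big v).comp_injective hinj
    rw [e]
    refine ⟨(summable_subtype_iff_indicator (s := S) (f := fun i => ‖v (put i n b)‖ ^ 2)).1 hs, ?_⟩
    rw [← tsum_subtype S fun i => ‖v (put i n b)‖ ^ 2, norm_sq_big]
    exact hs.tsum_le_tsum_of_inj _ hinj (fun c _ => sq_nonneg _) (fun _ => le_rfl) (summable_big v)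
  refine ⟨LinearMap.mkContinuous
    { toFun := fun v => ⟨fun i => if i n = a then v (put i n b) else 0, memℓp_big (key v).1⟩
      map_add' := fun v w => lp.ext (funext fun i => by
        show (if i n = a then (v + w) (put i n b) else 0) = _ + _
        split_ifs with h <;> simp [h])
      map_smul' := fun c v => lp.ext (funext fun i => by
        show (if i n = a then (c • v) (put i n b) else 0) = c • _
        split_ifs with h <;> simp [h]) } 1 fun v => ?_, fun v i => rfl⟩
  rw [one_mul]
  refine (pow_le_pow_iff_left₀ (norm_nonneg _) (norm_nonneg _) two_ne_zero).1 ?_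
  rw [norm_sq_big]
  exact (key v).2

omit [∀ n, Fintype (κ n)] [InnerProductSpace ℂ H] [CompleteSpace H] in
theorem single_of_ne {i j : Lbl κ} (h : H) (hne : i ≠ j) :
    (lp.single 2 j h : Big κ H) i = 0 :=
  lp.single_apply_ne (E := fun _ : Lbl κ => H) 2 j h hne

/-- The unit `(a, b)` at site `n`. -/
noncomputable def pull (n : ℕ) (a b : κ n) : Big κ H →L[ℂ] Big κ H :=
  (exists_pull (H := H) n a b).choose

omit [CompleteSpace H] in
theorem pull_apply (n : ℕ) (a b : κ n) (v : Big κ H) (i : Lbl κ) :
    pull n a b v i = if i n = a then v (put i n b) else 0 :=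
  (exists_pull (H := H) n a b).choose_spec v i

/-- A matrix at site `n`. -/
noncomputable def siteFun (n : ℕ) (A : Matrix (κ n) (κ n) ℂ) : Big κ H →L[ℂ] Big κ H :=
  ∑ a, ∑ b, A a b • pull n a b

omit [CompleteSpace H] in
theorem siteFun_apply (n : ℕ) (A : Matrix (κ n) (κ n) ℂ) (v : Big κ H) (i : Lbl κ) :
    siteFun n A v i = ∑ b, A (i n) b • v (put i n b) := by
  simp only [siteFun, sum_apply, smul_apply, lp.coeFn_sum, Finset.sum_apply, lp.coeFn_smul,
    Pi.smul_apply, pull_apply, smul_ite, smul_zero]
  rw [Finset.sum_comm]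
  simp

theorem star_pull (n : ℕ) (a b : κ n) :
    star (pull n a b : Big κ H →L[ℂ] Big κ H) = pull n b a := by
  refine ((ContinuousLinearMap.eq_adjoint_iff _ _).2 fun v w => ?_).symm
  rw [lp.inner_eq_tsum, lp.inner_eq_tsum]
  simp only [pull_apply]
  have hσ : Function.Involutive fun i : Lbl κ => put i n (Equiv.swap a b (i n)) := fun i => by
    simp only [put_apply_same, put_put, Equiv.swap_apply_self, put_self]
  rw [← (hσ.toPerm _).tsum_eq]
  refine tsum_congr fun i => ?_
  simp only [Function.Involutive.coe_toPerm, put_apply_same, put_put]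
  by_cases h : i n = a
  · rw [h, Equiv.swap_apply_left, if_pos rfl, if_pos rfl]
    refine congrArg₂ (fun x y => ⟪x, y⟫_ℂ) (congrArg (fun j => v j) ?_) rfl
    rw [← h, put_self]
  · rw [if_neg h, if_neg, inner_zero_left, inner_zero_right]
    intro h'
    exact h ((Equiv.swap a b).injective (h'.trans (Equiv.swap_apply_left a b).symm))

omit [CompleteSpace H] in
theorem siteFun_mul (n : ℕ) (A B : Matrix (κ n) (κ n) ℂ) :
    (siteFun n (A * B) : Big κ H →L[ℂ] Big κ H) = siteFun n A * siteFun n B := by
  refine big_ext fun v i => ?_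
  simp only [mul_apply_eq_comp, siteFun_apply, put_apply_same, put_put, Finset.smul_sum,
    smul_smul, Matrix.mul_apply, Finset.sum_smul]
  exact Finset.sum_comm

variable (H) in
/-- The matrices at site `n`. -/
noncomputable def site (n : ℕ) : Matrix (κ n) (κ n) ℂ →⋆ₐ[ℂ] (Big κ H →L[ℂ] Big κ H) where
  toFun := siteFun n
  map_one' := big_ext fun v i => by
    rw [siteFun_apply, one_apply_eq_self]
    simp [Matrix.one_apply, put_self]
  map_mul' := siteFun_mul n
  map_zero' := by simp [siteFun]
  map_add' := fun A B => by simp [siteFun, add_smul, Finset.sum_add_distrib]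
  commutes' := fun c => big_ext fun v i => by
    rw [siteFun_apply, Algebra.algebraMap_eq_smul_one, Algebra.algebraMap_eq_smul_one]
    simp [Matrix.one_apply, put_self]
  map_star' := fun A => by
    simp only [siteFun, star_sum, star_smul, star_pull]
    rw [Finset.sum_comm]
    rfl

theorem site_apply (n : ℕ) (A : Matrix (κ n) (κ n) ℂ) (v : Big κ H) (i : Lbl κ) :
    site H n A v i = ∑ b, A (i n) b • v (put i n b) := siteFun_apply n A v i

theorem commute_site {n m : ℕ} (h : n ≠ m) (A : Matrix (κ n) (κ n) ℂ)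
    (B : Matrix (κ m) (κ m) ℂ) :
    Commute (site H n A) (site H m B) := by
  refine big_ext fun v i => ?_
  simp only [mul_apply_eq_comp, site_apply, put_apply_ne _ h, put_apply_ne _ h.symm,
    Finset.smul_sum, smul_smul]
  rw [Finset.sum_comm]
  exact Finset.sum_congr rfl fun a _ => Finset.sum_congr rfl fun b _ => by
    rw [mul_comm, put_comm _ h.symm]

omit [∀ n, Fintype (κ n)] [∀ n, DecidableEq (κ n)] [CompleteSpace H] in
/-- An operator on every coordinate is bounded. -/
theorem exists_amp (y : H →L[ℂ] H) :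
    ∃ T : Big κ H →L[ℂ] Big κ H, (∀ v i, T v i = y (v i)) ∧ ‖T‖ ≤ ‖y‖ := by
  have key : ∀ v : Big κ H, ∀ i, ‖y (v i)‖ ^ 2 ≤ ‖y‖ ^ 2 * ‖v i‖ ^ 2 := fun v i => by
    rw [← mul_pow]; exact pow_le_pow_left₀ (norm_nonneg _) (y.le_opNorm _) 2
  have hs : ∀ v : Big κ H, Summable fun i => ‖y (v i)‖ ^ 2 := fun v =>
    .of_nonneg_of_le (fun _ => sq_nonneg _) (key v) ((summable_big v).mul_left _)
  refine ⟨LinearMap.mkContinuous
    { toFun := fun v => ⟨fun i => y (v i), memℓp_big (hs v)⟩
      map_add' := fun v w => lp.ext (funext fun i => map_add y (v i) (w i))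
      map_smul' := fun c v => lp.ext (funext fun i => map_smul y c (v i)) } ‖y‖ fun v => ?_,
    fun v i => rfl, LinearMap.mkContinuous_norm_le _ (norm_nonneg _) _⟩
  refine (pow_le_pow_iff_left₀ (norm_nonneg _) (by positivity) two_ne_zero).1 ?_
  rw [mul_pow, norm_sq_big, norm_sq_big, ← tsum_mul_left]
  exact (hs v).tsum_le_tsum (key v) ((summable_big v).mul_left _)

/-- An operator in every coordinate. -/
noncomputable def ampFun (y : H →L[ℂ] H) : Big κ H →L[ℂ] Big κ H :=
  (exists_amp (κ := κ) y).choose

omit [∀ n, Fintype (κ n)] [∀ n, DecidableEq (κ n)] [CompleteSpace H] in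
theorem ampFun_apply (y : H →L[ℂ] H) (v : Big κ H) (i : Lbl κ) : ampFun y v i = y (v i) :=
  (exists_amp (κ := κ) y).choose_spec.1 v i

omit [∀ n, Fintype (κ n)] [∀ n, DecidableEq (κ n)] in
theorem star_ampFun (y : H →L[ℂ] H) :
    star (ampFun y : Big κ H →L[ℂ] Big κ H) = ampFun (star y) := by
  refine ((ContinuousLinearMap.eq_adjoint_iff _ _).2 fun v w => ?_).symm
  rw [lp.inner_eq_tsum, lp.inner_eq_tsum]
  refine tsum_congr fun i => ?_
  rw [ampFun_apply, ampFun_apply, ContinuousLinearMap.star_eq_adjoint,
    ContinuousLinearMap.adjoint_inner_left]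

variable (κ H) in
/-- The amplification. -/
noncomputable def amp : (H →L[ℂ] H) →⋆ₐ[ℂ] (Big κ H →L[ℂ] Big κ H) where
  toFun := ampFun
  map_one' := big_ext fun v i => by simp [ampFun_apply]
  map_mul' := fun x y => big_ext fun v i => by simp [ampFun_apply]
  map_zero' := big_ext fun v i => by simp [ampFun_apply]
  map_add' := fun x y => big_ext fun v i => by simp [ampFun_apply]
  commutes' := fun c => big_ext fun v i => by
    simp [ampFun_apply, Algebra.algebraMap_eq_smul_one]
  map_star' := fun x => (star_ampFun x).symm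

omit [∀ n, Fintype (κ n)] in
theorem amp_apply (y : H →L[ℂ] H) (v : Big κ H) (i : Lbl κ) : amp κ H y v i = y (v i) :=
  ampFun_apply y v i

omit [∀ n, Fintype (κ n)] in
theorem norm_amp (y : H →L[ℂ] H) : ‖amp κ H y‖ = ‖y‖ := by
  refine le_antisymm (exists_amp (κ := κ) y).choose_spec.2
    (y.opNorm_le_bound (norm_nonneg _) fun u => ?_)
  have h1 := (amp κ H y).le_opNorm (lp.single 2 0 u)
  have h2 := lp.norm_apply_le_norm (by norm_num) (amp κ H y (lp.single 2 0 u)) 0
  rw [amp_apply, lp.single_apply_self] at h2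
  rw [lp.norm_single (by norm_num)] at h1
  exact h2.trans h1

theorem commute_amp_site (y : H →L[ℂ] H) (n : ℕ) (A : Matrix (κ n) (κ n) ℂ) :
    Commute (amp κ H y) (site H n A) :=
  big_ext fun v i => by simp [site_apply, amp_apply, map_sum]

theorem site_single (n : ℕ) (A : Matrix (κ n) (κ n) ℂ) (j : Lbl κ) (h : H) :
    site H n A (lp.single 2 j h) = ∑ a, A a (j n) • lp.single 2 (put j n a) h := by
  refine lp.ext (funext fun i => ?_)
  simp only [lp.coeFn_sum, Finset.sum_apply, lp.coeFn_smul, Pi.smul_apply]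
  rw [site_apply]
  by_cases hi : put i n (j n) = j
  · have hij : put j n (i n) = i := eq_put_iff i j n _ hi
    rw [Finset.sum_eq_single (j n) (fun b _ hb => ?_) (by simp),
      Finset.sum_eq_single (i n) (fun a _ ha => ?_) (by simp), hi, hij, lp.single_apply_self,
      lp.single_apply_self]
    · exact smul_eq_zero_of_right _ (single_of_ne h fun e => ha (by
        rw [e, put_apply_same]))
    · exact smul_eq_zero_of_right _ (single_of_ne h fun e => hb (by
        rw [← e, put_apply_same]))
  · rw [Finset.sum_eq_zero fun b _ => ?_, Finset.sum_eq_zero fun a _ => ?_]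
    · exact smul_eq_zero_of_right _
        (single_of_ne h fun e => hi (eq_put_iff j i n a e.symm))
    · refine smul_eq_zero_of_right _ (single_of_ne h fun e => hi ?_)
      have h' : b = j n := by rw [← e, put_apply_same]
      rw [← h', e]

end Vale.Agent.P096.III.Tensor
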