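import Vale.Agent.P096.III.Tensor.Alg
import Vale.Agent.P132.Iface

/-!
# P096, type III: the product vector

`vac` is the given vector at the reference label. The amplified algebra and the matrices at the
sites generate a star algebra `core` whose elements each commute with all far sites; on it the
vector is cyclic, and it separates `tens`.
-/

namespace Vale.Agent.P096.III.Tensor

open scoped InnerProductSpace Topology
open Filter

universe u

variable {κ : ℕ → Type} [∀ n, Fintype (κ n)] [∀ n, DecidableEq (κ n)] [∀ n, Zero (κ n)]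
variable {H : Type u} [NormedAddCommGroup H] [InnerProductSpace ℂ H] [CompleteSpace H]
variable {G : ∀ n, Finset (Matrix (κ n) (κ n) ℂ)} {M : VonNeumannAlgebra H} {Ω : H}

variable (κ) in
/-- The product vector. -/
noncomputable def vac (Ω : H) : Big κ H := lp.single 2 0 Ω

omit [∀ n, Fintype (κ n)] [CompleteSpace H] in
theorem norm_vac (Ω : H) : ‖vac κ Ω‖ = ‖Ω‖ := lp.norm_single (by norm_num) _ _

omit [∀ n, Fintype (κ n)] [CompleteSpace H] in
theorem inner_vac (T : Big κ H →L[ℂ] Big κ H) (u w : H) :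
    ⟪vac κ u, T (vac κ w)⟫_ℂ = ⟪u, blk 0 0 T w⟫_ℂ := by
  rw [vac, lp.inner_single_left, blk_apply]
  rfl

/-- A closed subspace that contains the reference coordinate and is invariant under enough
matrices at every site is everything. -/
theorem mem_of_invariant (W : Submodule ℂ (Big κ H)) (hW : IsClosed (W : Set (Big κ H)))
    (h0 : ∀ h : H, lp.single 2 0 h ∈ W) (S : ∀ n, Set (Matrix (κ n) (κ n) ℂ))
    (hinv : ∀ n, ∀ A ∈ S n, ∀ v ∈ W, site H n A v ∈ W)
    (hspan : ∀ n a, (Pi.single a 1 : κ n → ℂ) ∈ Submodule.span ℂ ((fun A b => A b 0) '' S n))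
    (v : Big κ H) : v ∈ W := by
  have step : ∀ (j : Lbl κ) (n : ℕ) (a : κ n) (h : H), j n = 0 → lp.single 2 j h ∈ W →
      lp.single 2 (put j n a) h ∈ W := by
    intro j n a h hj hjW
    let Φ : (κ n → ℂ) →ₗ[ℂ] Big κ H :=
      { toFun := fun c => ∑ b, c b • (lp.single 2 (put j n b) h : Big κ H)
        map_add' := fun c c' => by simp [add_smul, Finset.sum_add_distrib]
        map_smul' := fun r c => by simp [Finset.smul_sum, smul_smul] }
    have hle : Submodule.span ℂ ((fun A b => A b 0) '' S n) ≤ W.comap Φ := by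
      refine Submodule.span_le.2 ?_
      rintro _ ⟨A, hA, rfl⟩
      have := hinv n A hA _ hjW
      rw [site_single, hj] at this
      exact this
    have := hle (hspan n a)
    have e : Φ (Pi.single a 1) = lp.single 2 (put j n a) h := by
      show ∑ b, (Pi.single a 1 : κ n → ℂ) b • (lp.single 2 (put j n b) h : Big κ H) = _
      rw [Finset.sum_eq_single a (fun b _ hb => by simp [hb]) (by simp)]
      simp
    rw [← e]
    exact this
  have single : ∀ (s : Finset ℕ) (i : Lbl κ), (∀ n, n ∉ s → i n = 0) → ∀ h : H,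
      lp.single 2 i h ∈ W := by
    intro s
    induction s using Finset.induction_on with
    | empty =>
      intro i hi h
      rw [show i = 0 from DFinsupp.ext fun n => hi n (by simp)]
      exact h0 h
    | insert n s _ ih =>
      intro i hi h
      have := step (put i n 0) n (i n) h (put_apply_same i n 0) (ih _ (fun m hm => by
        rcases eq_or_ne m n with rfl | hne
        · exact put_apply_same i m 0
        · rw [put_apply_ne i hne]
          exact hi m (by simp [hne, hm])) h)
      rwa [put_put, put_self] at this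
  refine hW.mem_of_tendsto (lp.hasSum_single (p := 2) (by norm_num) v) (Eventually.of_forall
    fun t => Submodule.sum_mem _ fun i _ => ?_)
  exact single i.support i (fun n hn => DFinsupp.notMem_support_iff.1 hn) _

/-- The star algebra of the amplification and the sites. -/
noncomputable def core (G : ∀ n, Finset (Matrix (κ n) (κ n) ℂ)) (M : VonNeumannAlgebra H) :
    StarSubalgebra ℂ (Big κ H →L[ℂ] Big κ H) :=
  StarAlgebra.adjoin ℂ ((amp κ H '' (M : Set (H →L[ℂ] H))) ∪
    ⋃ n, site H n '' {A | ∀ g ∈ G n, Commute g A})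

theorem amp_mem_core {x : H →L[ℂ] H} (hx : x ∈ M) : amp κ H x ∈ core G M :=
  StarAlgebra.subset_adjoin ℂ _ (Or.inl ⟨x, hx, rfl⟩)

theorem site_mem_core (n : ℕ) {A : Matrix (κ n) (κ n) ℂ} (hA : ∀ g ∈ G n, Commute g A) :
    site H n A ∈ core G M :=
  StarAlgebra.subset_adjoin ℂ _ (Or.inr (Set.mem_iUnion.2 ⟨n, A, hA, rfl⟩))

theorem core_le (hG : IsUGroup G) : core G M ≤ (tens G M).toStarSubalgebra := by
  refine StarAlgebra.adjoin_le ?_
  rintro _ (⟨x, hx, rfl⟩ | hS)
  · exact amp_mem hG hx
  · obtain ⟨n, A, hA, rfl⟩ := Set.mem_iUnion.1 hS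
    exact site_mem hG n hA

/-- `T` commutes with every matrix at all sites from `N` on. -/
def Away (N : ℕ) (T : Big κ H →L[ℂ] Big κ H) : Prop :=
  ∀ n, N ≤ n → ∀ A : Matrix (κ n) (κ n) ℂ, Commute (site H n A) T

theorem exists_away {T : Big κ H →L[ℂ] Big κ H} (hT : T ∈ core G M) : ∃ N, Away N T := by
  induction hT using StarAlgebra.adjoin_induction with
  | mem x hx =>
    rcases hx with ⟨y, -, rfl⟩ | hS
    · exact ⟨0, fun n _ A => (commute_amp_site y n A).symm⟩
    · obtain ⟨m, B, -, rfl⟩ := Set.mem_iUnion.1 hS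
      exact ⟨m + 1, fun n hn A => commute_site (by omega) A B⟩
  | algebraMap r => exact ⟨0, fun n _ A => Algebra.commute_algebraMap_right r _⟩
  | add x y _ _ hx hy =>
    obtain ⟨a, ha⟩ := hx
    obtain ⟨b, hb⟩ := hy
    exact ⟨max a b, fun n hn A =>
      (ha n (le_of_max_le_left hn) A).add_right (hb n (le_of_max_le_right hn) A)⟩
  | mul x y _ _ hx hy =>
    obtain ⟨a, ha⟩ := hx
    obtain ⟨b, hb⟩ := hy
    exact ⟨max a b, fun n hn A =>
      (ha n (le_of_max_le_left hn) A).mul_right (hb n (le_of_max_le_right hn) A)⟩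
  | star x _ hx =>
    obtain ⟨a, ha⟩ := hx
    refine ⟨a, fun n hn A => ?_⟩
    have := (ha n hn (star A)).star_star
    rwa [← map_star, star_star] at this

/-- Finite stage vectors are dense. -/
theorem cyclic_core (hgen : ∀ n a, (Pi.single a 1 : κ n → ℂ) ∈
      Submodule.span ℂ ((fun A b => A b 0) '' {A | ∀ g ∈ G n, Commute g A}))
    (hΩ : ∀ ξ : H, ∀ η : ℝ, 0 < η → ∃ x ∈ M, ‖x Ω - ξ‖ ≤ η)
    (v : Big κ H) (η : ℝ) (hη : 0 < η) : ∃ T ∈ core G M, ‖T (vac κ Ω) - v‖ ≤ η := by
  let V : Submodule ℂ (Big κ H) :=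
    { carrier := {w | ∃ T ∈ core G M, T (vac κ Ω) = w}
      add_mem' := by
        rintro _ _ ⟨S, hS, rfl⟩ ⟨T, hT, rfl⟩
        exact ⟨S + T, add_mem hS hT, rfl⟩
      zero_mem' := ⟨0, zero_mem _, rfl⟩
      smul_mem' := by
        rintro c _ ⟨S, hS, rfl⟩
        exact ⟨c • S, (core G M).smul_mem hS c, rfl⟩ }
  have h0 : ∀ h : H, (lp.single 2 0 h : Big κ H) ∈ V.topologicalClosure := fun h => by
    rw [← SetLike.mem_coe, Submodule.topologicalClosure_coe, Metric.mem_closure_iff]
    intro ε hε
    obtain ⟨x, hx, hxh⟩ := hΩ h (ε / 2) (half_pos hε)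
    refine ⟨amp κ H x (vac κ Ω), ⟨_, amp_mem_core hx, rfl⟩, ?_⟩
    rw [vac, amp_single, dist_eq_norm, ← lp.single_sub, lp.norm_single (by norm_num),
      norm_sub_rev]
    linarith
  have hv : v ∈ V.topologicalClosure :=
    mem_of_invariant _ V.isClosed_topologicalClosure h0 _ (fun n A hA w hw =>
      map_mem_closure (site H n A).continuous hw fun u hu => by
        obtain ⟨T, hT, rfl⟩ := hu
        exact ⟨_, mul_mem (site_mem_core n hA) hT, rfl⟩) hgen v
  obtain ⟨_, ⟨T, hT, rfl⟩, hd⟩ := Metric.mem_closure_iff.1 hv η hη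
  exact ⟨T, hT, by rw [← dist_eq_norm, dist_comm]; exact hd.le⟩

/-- The product vector separates the tensor algebra. -/
theorem separating_tens (hG : IsUGroup G) (hgen : ∀ n a, (Pi.single a 1 : κ n → ℂ) ∈
      Submodule.span ℂ ((fun A b => A b 0) '' (G n : Set (Matrix (κ n) (κ n) ℂ))))
    (hΩ : ∀ x ∈ M, x Ω = 0 → x = 0) {T : Big κ H →L[ℂ] Big κ H} (hT : T ∈ tens G M)
    (h0 : T (vac κ Ω) = 0) : T = 0 := by
  have hz : ∀ h : H, T (lp.single 2 0 h) = 0 := fun h => by
    refine lp.ext (funext fun i => ?_)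
    have : blk i 0 T = 0 := hΩ _ (blk_mem hG hT i 0) (by
      rw [blk_apply, ← vac, h0]
      rfl)
    rw [← blk_apply, this]
    rfl
  refine ContinuousLinearMap.ext fun v => LinearMap.mem_ker.1 ?_
  exact mem_of_invariant (LinearMap.ker (T : Big κ H →ₗ[ℂ] Big κ H)) T.isClosed_ker
    (fun h => LinearMap.mem_ker.2 (hz h)) _ (fun n g hg w hw => LinearMap.mem_ker.2 (by
      have e := congrArg (fun S : Big κ H →L[ℂ] Big κ H => S w) ((mem_tens hG).1 hT |>.2 n g hg).eq
      simp only [mul_apply_eq_comp] at e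
      show T (site H n g w) = 0
      rw [← e, show T w = 0 from LinearMap.mem_ker.1 hw, map_zero])) hgen v

/-- The product vector is cyclic and separating. -/
theorem isCS_vac (hG : IsUGroup G)
    (hl : ∀ n a, (Pi.single a 1 : κ n → ℂ) ∈
      Submodule.span ℂ ((fun A b => A b 0) '' {A | ∀ g ∈ G n, Commute g A}))
    (hr : ∀ n a, (Pi.single a 1 : κ n → ℂ) ∈
      Submodule.span ℂ ((fun A b => A b 0) '' (G n : Set (Matrix (κ n) (κ n) ℂ))))
    (hΩ : P132.IsCS M Ω) : P132.IsCS (tens G M) (vac κ Ω) where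
  norm := (norm_vac Ω).trans hΩ.norm
  cyclic v η hη := by
    obtain ⟨T, hT, h⟩ := cyclic_core hl hΩ.cyclic v η hη
    exact ⟨T, core_le hG hT, h⟩
  separating T hT h0 := separating_tens hG hr hΩ.separating hT h0

/-- The product formula at a site on which `T` acts trivially. -/
theorem blk00_mul_site {n : ℕ} {T : Big κ H →L[ℂ] Big κ H}
    (hT : ∀ B : Matrix (κ n) (κ n) ℂ, Commute (site H n B) T) (A : Matrix (κ n) (κ n) ℂ) :
    blk 0 0 (T * site H n A) = A 0 0 • blk 0 0 T := by
  refine ContinuousLinearMap.ext fun h => ?_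
  rw [blk_apply, mul_apply_eq_comp, site_single, map_sum, lp.coeFn_sum, Finset.sum_apply,
    smul_apply, blk_apply]
  rw [Finset.sum_eq_single (0 : κ n) (fun a _ ha => ?_) (by simp)]
  · rw [map_smul, lp.coeFn_smul, Pi.smul_apply, DFinsupp.zero_apply,
      show put (0 : Lbl κ) n 0 = 0 from put_self (0 : Lbl κ) n]
  · rw [map_smul, lp.coeFn_smul, Pi.smul_apply]
    refine smul_eq_zero_of_right _ ?_
    have e : (lp.single 2 (put (0 : Lbl κ) n a) h : Big κ H) =
        site H n (Matrix.single a 0 1) (lp.single 2 0 h) := by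
      rw [site_single, Finset.sum_eq_single a (fun b _ hb => by simp [Ne.symm hb]) (by simp)]
      simp
    have e' := congrArg (fun S : Big κ H →L[ℂ] Big κ H => S (lp.single 2 0 h))
      (hT (Matrix.single a 0 1)).eq
    simp only [mul_apply_eq_comp] at e'
    rw [e, ← e', site_apply]
    refine Finset.sum_eq_zero fun b _ => ?_
    rw [Matrix.single_apply_of_row_ne (by simpa using ha), zero_smul]

/-- An operator commuting with every matrix at every site is amplified. -/
theorem eq_amp_of_commute_site {T : Big κ H →L[ℂ] Big κ H}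
    (hT : ∀ n, ∀ A : Matrix (κ n) (κ n) ℂ, Commute (site H n A) T) :
    T = amp κ H (blk 0 0 T) := by
  have hc : ∀ n A v, T (site H n A v) = site H n A (T v) := fun n A v => by
    have := congrArg (fun S : Big κ H →L[ℂ] Big κ H => S v) (hT n A).eq
    simpa only [mul_apply_eq_comp] using this.symm
  let W : Submodule ℂ (Big κ H) :=
    LinearMap.ker ((T - amp κ H (blk 0 0 T) : Big κ H →L[ℂ] Big κ H) : Big κ H →ₗ[ℂ] Big κ H)
  refine sub_eq_zero.1 (ContinuousLinearMap.ext fun v => LinearMap.mem_ker.1 (?_ : v ∈ W))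
  refine mem_of_invariant W (ContinuousLinearMap.isClosed_ker _) (fun h => ?_) (fun _ => Set.univ)
    (fun n A _ w hw => ?_) (fun n a => Submodule.subset_span
      ⟨Matrix.single a 0 1, trivial, funext fun b => by
        simp [Matrix.single_apply, Pi.single_apply, eq_comm]⟩) v
  · refine LinearMap.mem_ker.2 ?_
    show T (lp.single 2 0 h) - amp κ H (blk 0 0 T) (lp.single 2 0 h) = 0
    rw [amp_single, sub_eq_zero]
    refine lp.ext (funext fun i => ?_)
    rcases eq_or_ne i 0 with rfl | hi
    · rw [lp.single_apply_self, blk_apply]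
    · rw [single_of_ne _ hi]
      obtain ⟨n, hn⟩ : ∃ n, i n ≠ 0 := by
        by_contra hcon
        push Not at hcon
        exact hi (DFinsupp.ext hcon)
      have e : site H n (Matrix.single (0 : κ n) 0 1) (lp.single 2 (0 : Lbl κ) h) =
          lp.single 2 (0 : Lbl κ) h := by
        rw [site_single, Finset.sum_eq_single 0 (fun b _ hb => by simp [Ne.symm hb]) (by simp)]
        simp [show ((0 : Lbl κ) n) = 0 from rfl, show put (0 : Lbl κ) n 0 = 0 from put_self _ n]
      rw [← e, hc, site_apply]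
      refine Finset.sum_eq_zero fun b _ => ?_
      rw [Matrix.single_apply_of_row_ne (Ne.symm hn), zero_smul]
  · refine LinearMap.mem_ker.2 ?_
    have e : T w - amp κ H (blk 0 0 T) w = 0 := LinearMap.mem_ker.1 hw
    show T (site H n A w) - amp κ H (blk 0 0 T) (site H n A w) = 0
    have ec := congrArg (fun S : Big κ H →L[ℂ] Big κ H => S w)
      (commute_amp_site (blk 0 0 T) n A).eq
    simp only [mul_apply_eq_comp] at ec
    rw [hc, ec, ← map_sub, e, map_zero]

end Vale.Agent.P096.III.Tensor
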